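import Claimed.Agent.R254.Basic

/-!
THIS FILE = PACKAGE E254-KERBASIC (row 254, END254-B; architect helper65).  Mathlib only.
# The frequency-side localisation kernel (Tao's sparse-ball lemma without Fourier theory).

`χ₂ = bmp2` (bump on `E2`), `χ₁ = bmp1` (bump on `ℝ`): smooth, values in `[0,1]`, `= 1` on the ball of radius `1/2`, support = open unit ball (`ContDiffBump` API).
`w = (y₁,t) ∈ E2 × ℝ` are coordinates `Γ(w) = (y₁, φ y₁ + t)` of the frequency space `ℝ³`, `γ(y) = (y, φ y)`.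
`amp φ r w y = r⁻³ χ₂((y₁-y)/r) χ₁((φ y₁ - φ y + t)/r)  = r⁻³ χ((Γ(w) - γ(y))/r)`,
`kr φ r a w y = amp φ r w y * e(-a·(Γ(w) - γ(y)))`,     `Hop φ r a g w = ∫ kr φ r a w y g(y) dy`,
`eta x = ∫∫ χ₂(u) χ₁(s) e(x·(u,s)) ds du`.
KEY IDENTITY (`Ker/Ident.lean`):  `ext φ g x * eta (r (x - a)) = ∫_t e(x₃ t) ext φ (Hop φ r a g (·,t)) x dt`.

PLANS.  `er_eta`: `eta` is continuous (`continuous_of_dominated`, or write it as an integral over `E2 × ℝ`), `eta 0 = (∫χ₂)(∫χ₁) > 0` (`ContDiffBump.integral_pos`); take `c₀ = eta 0 / 2`.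
`er_lip`: `Convex.norm_image_sub_le_of_norm_fderiv_le` on `closedBall y₀ (2ρ)`.
`Hop_supp`: if `Hop ≠ 0` some `y` has `g y ≠ 0` and `amp ≠ 0` (else the integrand vanishes identically): `y ∈ closedBall y₀ ρ`, `‖y₁ - y‖ < r`, `|φ y₁ - φ y + t| < r`, `|φ y₁ - φ y| ≤ G r`.
`Hop_measurable`: `StronglyMeasurable.integral_prod_right` for the jointly measurable integrand.  `Hop_norm_le`: `‖Hop‖ ≤ r⁻³ ∫‖g‖`.
-/

set_option autoImplicit false

namespace Claimed.Agent.R254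

open MeasureTheory Metric Set
open scoped ContDiff ENNReal ComplexConjugate RealInnerProductSpace

/-- bump on the plane: `1` on `closedBall 0 (1/2)`, support `ball 0 1` -/
noncomputable def bmp2 : ContDiffBump (0 : E2) := ⟨1 / 2, 1, by norm_num, by norm_num⟩

/-- bump on the line: `1` on `[-1/2,1/2]`, support `(-1,1)` -/
noncomputable def bmp1 : ContDiffBump (0 : ℝ) := ⟨1 / 2, 1, by norm_num, by norm_num⟩

/-- modulus of the kernel -/
noncomputable def amp (φ : E2 → ℝ) (r : ℝ) (w : E2 × ℝ) (y : E2) : ℝ :=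
  r⁻¹ ^ 3 * bmp2 (r⁻¹ • (w.1 - y)) * bmp1 (r⁻¹ * (φ w.1 - φ y + w.2))

/-- the kernel -/
noncomputable def kr (φ : E2 → ℝ) (r : ℝ) (a : E3) (w : E2 × ℝ) (y : E2) : ℂ :=
  (amp φ r w y : ℂ) * ee (ph φ a y - ph φ a w.1 - a 2 * w.2)

/-- the localised datum -/
noncomputable def Hop (φ : E2 → ℝ) (r : ℝ) (a : E3) (g : E2 → ℂ) (w : E2 × ℝ) : ℂ :=
  ∫ y, kr φ r a w y * g y

/-- the physical-space window (inverse Fourier transform of the bump) -/
noncomputable def eta (x : E3) : ℂ :=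
  ∫ u : E2, ∫ s : ℝ, ((bmp2 u * bmp1 s : ℝ) : ℂ) * ee (x 0 * u 0 + x 1 * u 1 + x 2 * s)

theorem amp_nonneg (φ : E2 → ℝ) {r : ℝ} (hr : 0 < r) (w : E2 × ℝ) (y : E2) : 0 ≤ amp φ r w y := by
  unfold amp
  have h1 : 0 ≤ r⁻¹ ^ 3 := by positivity
  exact mul_nonneg (mul_nonneg h1 bmp2.nonneg) bmp1.nonneg

theorem amp_le (φ : E2 → ℝ) {r : ℝ} (hr : 0 < r) (w : E2 × ℝ) (y : E2) : amp φ r w y ≤ r⁻¹ ^ 3 := by
  unfold amp
  have h1 : 0 ≤ r⁻¹ ^ 3 := by positivity
  calc r⁻¹ ^ 3 * bmp2 (r⁻¹ • (w.1 - y)) * bmp1 (r⁻¹ * (φ w.1 - φ y + w.2))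
      ≤ r⁻¹ ^ 3 * 1 * 1 :=
        mul_le_mul (mul_le_mul_of_nonneg_left bmp2.le_one h1) bmp1.le_one bmp1.nonneg (by simpa using h1)
    _ = r⁻¹ ^ 3 := by ring

theorem amp_supp (φ : E2 → ℝ) {r : ℝ} (hr : 0 < r) {w : E2 × ℝ} {y : E2} (h : amp φ r w y ≠ 0) :
    ‖w.1 - y‖ < r ∧ |φ w.1 - φ y + w.2| < r := by
  unfold amp at h
  have h2 : bmp2 (r⁻¹ • (w.1 - y)) ≠ 0 := right_ne_zero_of_mul (left_ne_zero_of_mul h)
  have h1 : bmp1 (r⁻¹ * (φ w.1 - φ y + w.2)) ≠ 0 := right_ne_zero_of_mul h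
  have h2' : r⁻¹ • (w.1 - y) ∈ ball (0 : E2) 1 := by
    have := bmp2.support_eq
    exact this ▸ (Function.mem_support.2 h2)
  have h1' : r⁻¹ * (φ w.1 - φ y + w.2) ∈ ball (0 : ℝ) 1 := by
    have := bmp1.support_eq
    exact this ▸ (Function.mem_support.2 h1)
  rw [mem_ball_zero_iff, norm_smul, Real.norm_eq_abs, abs_of_pos (inv_pos.2 hr),
    inv_mul_lt_iff₀ hr, mul_one] at h2'
  rw [mem_ball_zero_iff, norm_mul, Real.norm_eq_abs, Real.norm_eq_abs, abs_of_pos (inv_pos.2 hr),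
    inv_mul_lt_iff₀ hr, mul_one] at h1'
  exact ⟨h2', h1'⟩

theorem amp_continuous {φ : E2 → ℝ} (hφ : Continuous φ) (r : ℝ) :
    Continuous (fun p : (E2 × ℝ) × E2 => amp φ r p.1 p.2) := by
  unfold amp
  refine (continuous_const.mul (bmp2.continuous.comp ?_)).mul (bmp1.continuous.comp ?_)
  · fun_prop
  · fun_prop

theorem kr_norm (φ : E2 → ℝ) {r : ℝ} (hr : 0 < r) (a : E3) (w : E2 × ℝ) (y : E2) :
    ‖kr φ r a w y‖ = amp φ r w y := by
  unfold kr
  rw [norm_mul, ee_norm, mul_one, Complex.norm_real, Real.norm_eq_abs,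
    abs_of_nonneg (amp_nonneg φ hr w y)]

theorem kr_continuous {φ : E2 → ℝ} (hφ : Continuous φ) (r : ℝ) :
    Continuous (fun p : E3 × (E2 × ℝ) × E2 => kr φ r p.1 p.2.1 p.2.2) := by
  unfold kr
  have h1 : Continuous (fun p : E3 × (E2 × ℝ) × E2 => amp φ r p.2.1 p.2.2) :=
    (amp_continuous hφ r).comp continuous_snd
  have h2 : Continuous (fun p : E3 × (E2 × ℝ) × E2 => ph φ p.1 p.2.2) :=
    (ph_continuous hφ).comp (continuous_fst.prodMk (continuous_snd.comp continuous_snd))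
  have h3 : Continuous (fun p : E3 × (E2 × ℝ) × E2 => ph φ p.1 p.2.1.1) :=
    (ph_continuous hφ).comp
      (continuous_fst.prodMk (continuous_fst.comp (continuous_fst.comp continuous_snd)))
  have h4 : Continuous (fun p : E3 × (E2 × ℝ) × E2 => p.1 2 * p.2.1.2) := by fun_prop
  exact (Complex.continuous_ofReal.comp h1).mul (ee_continuous.comp ((h2.sub h3).sub h4))

/-- the integrand of `eta`. -/
noncomputable def etaF (p : E3 × E2) (s : ℝ) : ℂ :=
  ((bmp2 p.2 * bmp1 s : ℝ) : ℂ) * ee (p.1 0 * p.2 0 + p.1 1 * p.2 1 + p.1 2 * s)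

theorem etaF_continuous : Continuous (Function.uncurry etaF) := by
  have h : Function.uncurry etaF = fun q : (E3 × E2) × ℝ =>
      ((bmp2 q.1.2 * bmp1 q.2 : ℝ) : ℂ) *
        ee (q.1.1 0 * q.1.2 0 + q.1.1 1 * q.1.2 1 + q.1.1 2 * q.2) := rfl
  rw [h]
  refine (Complex.continuous_ofReal.comp ((bmp2.continuous.comp ?_).mul
    (bmp1.continuous.comp ?_))).mul (ee_continuous.comp ?_)
  · fun_prop
  · fun_prop
  · fun_prop

theorem etaF_norm (p : E3 × E2) (s : ℝ) : ‖etaF p s‖ = bmp2 p.2 * bmp1 s := by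
  unfold etaF
  rw [norm_mul, ee_norm, mul_one, Complex.norm_real, Real.norm_eq_abs,
    abs_of_nonneg (mul_nonneg bmp2.nonneg bmp1.nonneg)]

/-- the inner integral of `eta`. -/
noncomputable def etaG (x : E3) (u : E2) : ℂ := ∫ s : ℝ, etaF (x, u) s

/-- the inner integral of `eta` is jointly continuous. -/
theorem etaG_continuous : Continuous (Function.uncurry etaG) := by
  have h : Function.uncurry etaG = fun p : E3 × E2 => ∫ s : ℝ, etaF p s := rfl
  rw [h]
  refine continuous_of_dominated (bound := fun s => bmp1 s) ?_ ?_ bmp1.integrable ?_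
  · intro p
    exact (etaF_continuous.uncurry_left p).aestronglyMeasurable
  · intro p
    refine Filter.Eventually.of_forall fun s => ?_
    rw [etaF_norm]
    exact mul_le_of_le_one_left bmp1.nonneg bmp2.le_one
  · exact Filter.Eventually.of_forall fun s => etaF_continuous.uncurry_right s

theorem eta_eq (x : E3) : eta x = ∫ u : E2, etaG x u := rfl

theorem eta_continuous : Continuous eta := by
  have h : eta = fun x => ∫ u : E2, etaG x u := rfl
  rw [h]
  refine continuous_of_dominated (bound := fun u => bmp2 u * ∫ s, bmp1 s) ?_ ?_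
    (bmp2.integrable.mul_const _) ?_
  · intro x
    exact (etaG_continuous.uncurry_left x).aestronglyMeasurable
  · intro x
    refine Filter.Eventually.of_forall fun u => ?_
    unfold etaG
    refine (norm_integral_le_integral_norm _).trans (le_of_eq ?_)
    rw [← integral_const_mul]
    exact integral_congr_ae (Filter.Eventually.of_forall fun s => etaF_norm (x, u) s)
  · exact Filter.Eventually.of_forall fun u => etaG_continuous.uncurry_right u

theorem eta_zero : eta 0 = (((∫ u, bmp2 u) * ∫ s, bmp1 s : ℝ) : ℂ) := by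
  rw [eta_eq]
  have h1 : ∀ u : E2, etaG 0 u = ((bmp2 u * ∫ s, bmp1 s : ℝ) : ℂ) := by
    intro u
    unfold etaG
    rw [← integral_const_mul, ← integral_complex_ofReal]
    refine integral_congr_ae (Filter.Eventually.of_forall fun s => ?_)
    simp [etaF, ee_zero]
  simp_rw [h1]
  rw [integral_complex_ofReal, integral_mul_const]

theorem er_eta : ∃ r₀ c₀ : ℝ, 0 < r₀ ∧ r₀ ≤ 1 ∧ 0 < c₀ ∧ ∀ x : E3, ‖x‖ ≤ r₀ → c₀ ≤ ‖eta x‖ := by
  have hpos : 0 < ‖eta 0‖ := by
    rw [eta_zero, Complex.norm_real, Real.norm_eq_abs]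
    exact abs_pos.2 (mul_pos bmp2.integral_pos bmp1.integral_pos).ne'
  have hc : ContinuousAt eta 0 := eta_continuous.continuousAt
  obtain ⟨δ, hδ, hδ'⟩ := Metric.continuousAt_iff.1 hc (‖eta 0‖ / 2) (by positivity)
  refine ⟨min (δ / 2) 1, ‖eta 0‖ / 2, by positivity, min_le_right _ _, by positivity, ?_⟩
  intro x hx
  have hx' : dist x 0 < δ := by
    rw [dist_zero_right]
    exact lt_of_le_of_lt (hx.trans (min_le_left _ _)) (by linarith)
  have h1 := hδ' hx'
  rw [dist_eq_norm] at h1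
  have h2 : ‖eta 0‖ ≤ ‖eta x‖ + ‖eta x - eta 0‖ := by
    have := norm_sub_le (eta x) (eta x - eta 0)
    simpa using this
  linarith

theorem er_lip {φ : E2 → ℝ} {y₀ : E2} {ρ c G : ℝ} (h : ErLoc φ y₀ ρ c G) {y z : E2}
    (hy : y ∈ closedBall y₀ (2 * ρ)) (hz : z ∈ closedBall y₀ (2 * ρ)) : |φ y - φ z| ≤ G * ‖y - z‖ := by
  have := Convex.norm_image_sub_le_of_norm_fderiv_le (𝕜 := ℝ) (f := φ) (C := G)
    (s := closedBall y₀ (2 * ρ)) (fun x _ => h.smooth.differentiable (by simp) x) h.grad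
    (convex_closedBall _ _) hz hy
  simpa [Real.norm_eq_abs] using this

theorem Hop_supp {φ : E2 → ℝ} {y₀ : E2} {ρ c G : ℝ} (h : ErLoc φ y₀ ρ c G) {r : ℝ} (hr : 0 < r)
    (hrρ : r ≤ ρ) (a : E3) {g : E2 → ℂ} (hg : Dat y₀ ρ g) {w : E2 × ℝ} (hw : Hop φ r a g w ≠ 0) :
    w.1 ∈ closedBall y₀ (ρ + r) ∧ |w.2| ≤ (1 + G) * r := by
  have hex : ∃ y, kr φ r a w y * g y ≠ 0 := by
    by_contra hcon
    push Not at hcon
    apply hw
    unfold Hop
    simp_rw [hcon]
    exact integral_zero _ _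
  obtain ⟨y, hy⟩ := hex
  have hgy : y ∈ closedBall y₀ ρ := hg.supp y (right_ne_zero_of_mul hy)
  have hk : kr φ r a w y ≠ 0 := left_ne_zero_of_mul hy
  have ha : amp φ r w y ≠ 0 := by
    intro h0
    apply hk
    unfold kr
    rw [h0]
    simp
  obtain ⟨h1, h2⟩ := amp_supp φ hr ha
  have hw1 : w.1 ∈ closedBall y₀ (ρ + r) := by
    rw [mem_closedBall] at hgy ⊢
    calc dist w.1 y₀ ≤ dist w.1 y + dist y y₀ := dist_triangle _ _ _
      _ ≤ r + ρ := add_le_add (by rw [dist_eq_norm]; exact h1.le) hgy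
      _ = ρ + r := add_comm _ _
  refine ⟨hw1, ?_⟩
  have hw2 : w.1 ∈ closedBall y₀ (2 * ρ) := closedBall_subset_closedBall (by linarith) hw1
  have hy2 : y ∈ closedBall y₀ (2 * ρ) := closedBall_subset_closedBall (by linarith [h.hρ]) hgy
  have h3 := er_lip h hw2 hy2
  have h4 : G * ‖w.1 - y‖ ≤ G * r := mul_le_mul_of_nonneg_left h1.le (by linarith [h.hG])
  have h5 : |w.2| ≤ |φ w.1 - φ y + w.2| + |φ w.1 - φ y| := by
    have := abs_sub (φ w.1 - φ y + w.2) (φ w.1 - φ y)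
    simpa using this
  nlinarith

theorem Hop_measurable {φ : E2 → ℝ} (hφ : Continuous φ) (r : ℝ) (a : E3) {g : E2 → ℂ}
    (hg : Measurable g) : Measurable (Hop φ r a g) := by
  unfold Hop
  have h0 : Continuous (fun p : (E2 × ℝ) × E2 => ((a, p) : E3 × (E2 × ℝ) × E2)) := by fun_prop
  have h1 := ((kr_continuous hφ r).comp h0).measurable
  have h2 : Measurable (Function.uncurry fun (w : E2 × ℝ) (y : E2) => kr φ r a w y * g y) :=
    h1.mul (hg.comp measurable_snd)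
  exact (h2.stronglyMeasurable.integral_prod_right).measurable

theorem Hop_norm_le (φ : E2 → ℝ) {r : ℝ} (hr : 0 < r) (a : E3) {g : E2 → ℂ} (hg : Integrable g)
    (w : E2 × ℝ) : ‖Hop φ r a g w‖ ≤ r⁻¹ ^ 3 * ∫ y, ‖g y‖ := by
  unfold Hop
  rw [← integral_const_mul]
  refine norm_integral_le_of_norm_le (hg.norm.const_mul _) (Filter.Eventually.of_forall fun y => ?_)
  rw [norm_mul, kr_norm φ hr]
  exact mul_le_mul_of_nonneg_right (amp_le φ hr w y) (norm_nonneg _)

/-- the slices of the localised datum are admissible data on the doubled ball -/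
theorem Hop_dat {φ : E2 → ℝ} {y₀ : E2} {ρ c G : ℝ} (h : ErLoc φ y₀ ρ c G) {r : ℝ} (hr : 0 < r)
    (hrρ : r ≤ ρ) (a : E3) {g : E2 → ℂ} (hg : Dat y₀ ρ g) (t : ℝ) :
    Dat y₀ (2 * ρ) (fun y₁ => Hop φ r a g (y₁, t)) := by
  refine ⟨(Hop_measurable h.smooth.continuous r a hg.meas).comp measurable_prodMk_right,
    ⟨_, fun y => Hop_norm_le φ hr a hg.integrable (y, t)⟩, fun y hy => ?_⟩
  exact closedBall_subset_closedBall (by linarith) (Hop_supp h hr hrρ a hg hy).1

/-- generates the equation lemmas of the definitions above in this file (rule 6: unique names) -/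
theorem er_ker_eqns_cite : True := by
  have := @bmp2.eq_1
  have := @bmp1.eq_1
  have := @amp.eq_1
  have := @kr.eq_1
  have := @Hop.eq_1
  have := @eta.eq_1
  have := @etaF.eq_1
  have := @etaG.eq_1
  trivial

end Claimed.Agent.R254
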