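import Claimed.Agent.R254.Ker.Defs
import Claimed.Agent.R254.Decay.Main

/-!
THIS FILE = PACKAGE E254-GRAMOFF (row 254, END254-B; architect helper65).  Mathlib only.
# Off-diagonal Gram kernel: decay in `|a - a'|`.

`kr a w y * conj (kr a' w' y) = A(y) * e(ph φ (a - a') y) * e(const)`, `A(y) = amp φ r w y * amp φ r w' y` (`ee_sub`, `ee_add`, `ph_sub`; the constant is
`- ph φ a w.1 - a₃ w.2 + ph φ a' w'.1 + a'₃ w'.2`), so the modulus of the integral is `‖∫ e(ph φ (a-a') y) A(y) dy‖` and `dk_decay` applies once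
`er_amp_amp`: `A` is an `Amp y₀ ρ · (C r⁻⁷)`.
PLAN of `er_amp_amp`.  `A` is `C^∞` (`ContDiffBump.contDiff`, `h.smooth`).  `A y ≠ 0 ⇒ ‖w.1 - y‖ < r ⇒ y ∈ closedBall y₀ (ρ + 2r) ⊆ closedBall y₀ (2ρ)`.
`|A| ≤ r⁻⁶ ≤ r⁻⁷` (`r ≤ ρ/2 ≤ 1`).  Let `N₂ := sup ‖fderiv bmp2‖`, `N₁ := sup |deriv bmp1|` (finite: continuous with compact support, `Continuous.bounded_above_of_compact_support`/`HasCompactSupport.exists_bound_of_continuous`..).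
For `y ∈ closedBall y₀ (2ρ)`: `‖fderiv (amp φ r w ·) y‖ ≤ r⁻³ (r⁻¹ N₂ + r⁻¹ N₁ G)` (product + chain rule, `h.grad`), the same for `w'`; so `‖fderiv A y‖ ≤ 2 r⁻³ r⁻⁴ (N₂ + N₁ G)`.
For `y ∉ closedBall y₀ (2ρ)`: `A = 0` near `y` (the complement of `closedBall w.1 r` is open and contains `y`), so `fderiv A y = 0`.   `C := 1 + 2 (N₂ + N₁ G)`.
-/

set_option autoImplicit false

namespace Claimed.Agent.R254

open MeasureTheory Metric Set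
open scoped ContDiff ENNReal ComplexConjugate RealInnerProductSpace

/-- bounds of the derivatives of the two bumps -/
theorem er_bmp_bounds : ∃ N₂ N₁ : ℝ, 0 ≤ N₂ ∧ 0 ≤ N₁ ∧ (∀ p : E2, ‖fderiv ℝ bmp2 p‖ ≤ N₂) ∧
    ∀ s : ℝ, ‖fderiv ℝ bmp1 s‖ ≤ N₁ := by
  obtain ⟨N₂, h2⟩ := ((bmp2.contDiff (n := 1)).continuous_fderiv
    one_ne_zero).bounded_above_of_compact_support (bmp2.hasCompactSupport.fderiv (𝕜 := ℝ))
  obtain ⟨N₁, h1⟩ := ((bmp1.contDiff (n := 1)).continuous_fderiv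
    one_ne_zero).bounded_above_of_compact_support (bmp1.hasCompactSupport.fderiv (𝕜 := ℝ))
  exact ⟨N₂, N₁, (norm_nonneg _).trans (h2 0), (norm_nonneg _).trans (h1 0), h2, h1⟩

theorem er_amp_contDiff {φ : E2 → ℝ} (hφ : ContDiff ℝ ∞ φ) (r : ℝ) (w : E2 × ℝ) :
    ContDiff ℝ ∞ (amp φ r w) := by
  unfold amp
  refine (contDiff_const.mul (bmp2.contDiff.comp ?_)).mul (bmp1.contDiff.comp ?_)
  · exact (contDiff_const.sub contDiff_id).const_smul r⁻¹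
  · exact contDiff_const.mul ((contDiff_const.sub hφ).add contDiff_const)

/-- the gradient of `amp` -/
theorem er_amp_fderiv_le {φ : E2 → ℝ} (hφ : ContDiff ℝ ∞ φ) {N₂ N₁ G : ℝ}
    (h2 : ∀ p : E2, ‖fderiv ℝ bmp2 p‖ ≤ N₂) (h1 : ∀ s : ℝ, ‖fderiv ℝ bmp1 s‖ ≤ N₁) (hN₁ : 0 ≤ N₁)
    {r : ℝ} (hr : 0 < r) (w : E2 × ℝ) {y : E2} (hy : ‖fderiv ℝ φ y‖ ≤ G) :
    ‖fderiv ℝ (amp φ r w) y‖ ≤ r⁻¹ ^ 4 * (N₂ + N₁ * G) := by
  have hri : 0 < r⁻¹ := inv_pos.2 hr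
  have hP : HasFDerivAt (fun y : E2 => r⁻¹ • (w.1 - y)) (r⁻¹ • (-ContinuousLinearMap.id ℝ E2)) y :=
    ((hasFDerivAt_id y).const_sub w.1).const_smul r⁻¹
  have hS : HasFDerivAt (fun y : E2 => r⁻¹ * (φ w.1 - φ y + w.2)) (r⁻¹ • (-fderiv ℝ φ y)) y :=
    ((((hφ.differentiable (by simp) y).hasFDerivAt).const_sub (φ w.1)).add_const w.2).const_mul r⁻¹
  have d2 : HasFDerivAt (fun y : E2 => bmp2 (r⁻¹ • (w.1 - y)))
      ((fderiv ℝ bmp2 (r⁻¹ • (w.1 - y))).comp (r⁻¹ • (-ContinuousLinearMap.id ℝ E2))) y :=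
    ((bmp2.contDiff (n := 1)).differentiable one_ne_zero _).hasFDerivAt.comp y hP
  have d1 : HasFDerivAt (fun y : E2 => bmp1 (r⁻¹ * (φ w.1 - φ y + w.2)))
      ((fderiv ℝ bmp1 (r⁻¹ * (φ w.1 - φ y + w.2))).comp (r⁻¹ • (-fderiv ℝ φ y))) y :=
    ((bmp1.contDiff (n := 1)).differentiable one_ne_zero _).hasFDerivAt.comp y hS
  have d : HasFDerivAt (fun y => r⁻¹ ^ 3 * bmp2 (r⁻¹ • (w.1 - y))
      * bmp1 (r⁻¹ * (φ w.1 - φ y + w.2))) _ y := (d2.const_mul (r⁻¹ ^ 3)).mul d1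
  have e : amp φ r w = fun y => r⁻¹ ^ 3 * bmp2 (r⁻¹ • (w.1 - y))
      * bmp1 (r⁻¹ * (φ w.1 - φ y + w.2)) := rfl
  rw [e, d.fderiv]
  have n2 : ‖(fderiv ℝ bmp2 (r⁻¹ • (w.1 - y))).comp (r⁻¹ • (-ContinuousLinearMap.id ℝ E2))‖
      ≤ N₂ * r⁻¹ := by
    refine (ContinuousLinearMap.opNorm_comp_le _ _).trans ?_
    refine mul_le_mul (h2 _) ?_ (norm_nonneg _) ((norm_nonneg _).trans (h2 0))
    rw [norm_smul, norm_neg, Real.norm_eq_abs, abs_of_pos hri]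
    exact mul_le_of_le_one_right hri.le ContinuousLinearMap.norm_id_le
  have n1 : ‖(fderiv ℝ bmp1 (r⁻¹ * (φ w.1 - φ y + w.2))).comp (r⁻¹ • (-fderiv ℝ φ y))‖
      ≤ N₁ * (r⁻¹ * G) := by
    refine (ContinuousLinearMap.opNorm_comp_le _ _).trans ?_
    refine mul_le_mul (h1 _) ?_ (norm_nonneg _) hN₁
    rw [norm_smul, norm_neg, Real.norm_eq_abs, abs_of_pos hri]
    exact mul_le_mul_of_nonneg_left hy hri.le
  have hG : 0 ≤ G := (norm_nonneg _).trans hy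
  have hN₂ : 0 ≤ N₂ := (norm_nonneg _).trans (h2 0)
  have b2 : |bmp2 (r⁻¹ • (w.1 - y))| ≤ 1 := by
    rw [abs_of_nonneg bmp2.nonneg]; exact bmp2.le_one
  have b1 : |bmp1 (r⁻¹ * (φ w.1 - φ y + w.2))| ≤ 1 := by
    rw [abs_of_nonneg bmp1.nonneg]; exact bmp1.le_one
  refine (norm_add_le _ _).trans ?_
  rw [norm_smul, norm_smul, norm_smul, Real.norm_eq_abs, Real.norm_eq_abs, Real.norm_eq_abs,
    abs_mul, abs_of_pos (by positivity : 0 < r⁻¹ ^ 3)]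
  have t1 : r⁻¹ ^ 3 * |bmp2 (r⁻¹ • (w.1 - y))|
      * ‖(fderiv ℝ bmp1 (r⁻¹ * (φ w.1 - φ y + w.2))).comp (r⁻¹ • (-fderiv ℝ φ y))‖
      ≤ r⁻¹ ^ 3 * 1 * (N₁ * (r⁻¹ * G)) :=
    mul_le_mul (mul_le_mul_of_nonneg_left b2 (by positivity)) n1 (norm_nonneg _) (by positivity)
  have t2 : |bmp1 (r⁻¹ * (φ w.1 - φ y + w.2))| * (r⁻¹ ^ 3
      * ‖(fderiv ℝ bmp2 (r⁻¹ • (w.1 - y))).comp (r⁻¹ • (-ContinuousLinearMap.id ℝ E2))‖)
      ≤ 1 * (r⁻¹ ^ 3 * (N₂ * r⁻¹)) :=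
    mul_le_mul b1 (mul_le_mul_of_nonneg_left n2 (by positivity)) (by positivity) zero_le_one
  calc _ ≤ r⁻¹ ^ 3 * 1 * (N₁ * (r⁻¹ * G)) + 1 * (r⁻¹ ^ 3 * (N₂ * r⁻¹)) := add_le_add t1 t2
    _ = r⁻¹ ^ 4 * (N₂ + N₁ * G) := by ring

theorem er_amp_amp {φ : E2 → ℝ} {y₀ : E2} {ρ c G : ℝ} (h : ErLoc φ y₀ ρ c G) :
    ∃ C : ℝ, 0 ≤ C ∧ ∀ r : ℝ, 0 < r → r ≤ ρ / 2 → ∀ w w' : E2 × ℝ, w.1 ∈ closedBall y₀ (ρ + r) →
      Amp y₀ ρ (fun y => ((amp φ r w y * amp φ r w' y : ℝ) : ℂ)) (C * r⁻¹ ^ 7) := by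
  obtain ⟨N₂, N₁, hN₂, hN₁, h2, h1⟩ := er_bmp_bounds
  have hG : 0 ≤ G := by linarith [h.hG]
  refine ⟨1 + 2 * (N₂ + N₁ * G), by positivity, fun r hr hrρ w w' hw => ?_⟩
  have hri : 1 ≤ r⁻¹ := (one_le_inv₀ hr).2 (by linarith [h.hρ1, h.hρ])
  have hri0 : 0 < r⁻¹ := inv_pos.2 hr
  have hsmR : ContDiff ℝ ∞ (fun y => amp φ r w y * amp φ r w' y) :=
    (er_amp_contDiff h.smooth r w).mul (er_amp_contDiff h.smooth r w')
  have hsm : ContDiff ℝ ∞ (fun y => ((amp φ r w y * amp φ r w' y : ℝ) : ℂ)) :=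
    Complex.ofRealCLM.contDiff.comp hsmR
  have hsupp : ∀ y, y ∉ closedBall y₀ (2 * ρ) → ((amp φ r w y * amp φ r w' y : ℝ) : ℂ) = 0 := by
    intro y hy
    have : amp φ r w y = 0 := by
      by_contra hne
      apply hy
      have h3 := (amp_supp φ hr hne).1
      rw [mem_closedBall] at hw ⊢
      calc dist y y₀ ≤ dist y w.1 + dist w.1 y₀ := dist_triangle _ _ _
        _ ≤ r + (ρ + r) := add_le_add (by rw [dist_comm, dist_eq_norm]; exact h3.le) hw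
        _ ≤ 2 * ρ := by linarith
    rw [this, zero_mul, Complex.ofReal_zero]
  refine ⟨hsm.of_le (by exact_mod_cast le_top), hsupp, fun y => ?_, fun y => ?_⟩
  · rw [Complex.norm_real, Real.norm_eq_abs,
      abs_of_nonneg (mul_nonneg (amp_nonneg φ hr w y) (amp_nonneg φ hr w' y))]
    calc amp φ r w y * amp φ r w' y ≤ r⁻¹ ^ 3 * r⁻¹ ^ 3 :=
          mul_le_mul (amp_le φ hr w y) (amp_le φ hr w' y) (amp_nonneg φ hr w' y) (by positivity)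
      _ = 1 * r⁻¹ ^ 6 := by ring
      _ ≤ (1 + 2 * (N₂ + N₁ * G)) * r⁻¹ ^ 7 :=
          mul_le_mul (by linarith [show 0 ≤ 2 * (N₂ + N₁ * G) by positivity])
            (pow_le_pow_right₀ hri (by norm_num)) (by positivity) (by positivity)
  · by_cases hy : y ∈ closedBall y₀ (2 * ρ)
    · have dw := ((er_amp_contDiff h.smooth r w).differentiable (by simp) y)
      have dw' := ((er_amp_contDiff h.smooth r w').differentiable (by simp) y)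
      have e1 : fderiv ℝ (fun y => ((amp φ r w y * amp φ r w' y : ℝ) : ℂ)) y
          = Complex.ofRealCLM.comp (fderiv ℝ (fun y => amp φ r w y * amp φ r w' y) y) :=
        (Complex.ofRealCLM.hasFDerivAt.comp y (dw.mul dw').hasFDerivAt).fderiv
      rw [e1]
      refine (ContinuousLinearMap.opNorm_comp_le _ _).trans ?_
      rw [Complex.ofRealCLM_norm, one_mul, fderiv_fun_mul dw dw']
      refine (norm_add_le _ _).trans ?_
      rw [norm_smul, norm_smul, Real.norm_eq_abs, Real.norm_eq_abs,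
        abs_of_nonneg (amp_nonneg φ hr w y), abs_of_nonneg (amp_nonneg φ hr w' y)]
      have g1 := er_amp_fderiv_le h.smooth h2 h1 hN₁ hr w (h.grad y hy)
      have g2 := er_amp_fderiv_le h.smooth h2 h1 hN₁ hr w' (h.grad y hy)
      have t1 : amp φ r w y * ‖fderiv ℝ (amp φ r w') y‖ ≤ r⁻¹ ^ 3 * (r⁻¹ ^ 4 * (N₂ + N₁ * G)) :=
        mul_le_mul (amp_le φ hr w y) g2 (norm_nonneg _) (by positivity)
      have t2 : amp φ r w' y * ‖fderiv ℝ (amp φ r w) y‖ ≤ r⁻¹ ^ 3 * (r⁻¹ ^ 4 * (N₂ + N₁ * G)) :=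
        mul_le_mul (amp_le φ hr w' y) g1 (norm_nonneg _) (by positivity)
      calc _ ≤ r⁻¹ ^ 3 * (r⁻¹ ^ 4 * (N₂ + N₁ * G)) + r⁻¹ ^ 3 * (r⁻¹ ^ 4 * (N₂ + N₁ * G)) :=
            add_le_add t1 t2
        _ = (2 * (N₂ + N₁ * G)) * r⁻¹ ^ 7 := by ring
        _ ≤ (1 + 2 * (N₂ + N₁ * G)) * r⁻¹ ^ 7 :=
            mul_le_mul_of_nonneg_right (by linarith) (by positivity)
    · have hev : (fun y => ((amp φ r w y * amp φ r w' y : ℝ) : ℂ)) =ᶠ[nhds y] fun _ => 0 := by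
        filter_upwards [isClosed_closedBall.isOpen_compl.mem_nhds hy] with z hz
        exact hsupp z hz
      rw [hev.fderiv_eq, fderiv_fun_const]
      simp only [Pi.zero_apply, norm_zero]
      positivity

theorem er_gram_off {φ : E2 → ℝ} {y₀ : E2} {ρ c G : ℝ} (h : ErLoc φ y₀ ρ c G) :
    ∃ C : ℝ, 0 ≤ C ∧ ∀ r : ℝ, 0 < r → r ≤ ρ / 2 → ∀ (a a' : E3) (w w' : E2 × ℝ),
      w.1 ∈ closedBall y₀ (ρ + r) →
        ‖∫ y, kr φ r a w y * conj (kr φ r a' w' y)‖ ≤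
          C * r⁻¹ ^ 7 * (1 + ‖a - a'‖) ^ (-(1 / 4 : ℝ)) := by
  obtain ⟨C, hC, hamp⟩ := er_amp_amp h
  obtain ⟨CD, hCD, hdec⟩ := dk_decay h
  refine ⟨CD * C, by positivity, fun r hr hrρ a a' w w' hw => ?_⟩
  have e : ∀ y, kr φ r a w y * conj (kr φ r a' w' y)
      = ee (-ph φ a w.1 - a 2 * w.2 + ph φ a' w'.1 + a' 2 * w'.2)
        * (ee (ph φ (a - a') y) * ((amp φ r w y * amp φ r w' y : ℝ) : ℂ)) := by
    intro y
    have e1 : ee (-ph φ a w.1 - a 2 * w.2 + ph φ a' w'.1 + a' 2 * w'.2) * ee (ph φ (a - a') y)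
        = ee (ph φ a y - ph φ a w.1 - a 2 * w.2)
          * conj (ee (ph φ a' y - ph φ a' w'.1 - a' 2 * w'.2)) := by
      rw [← ee_add, ← ee_sub, ph_sub]
      congr 1
      ring
    unfold kr
    rw [map_mul, Complex.conj_ofReal]
    push_cast
    linear_combination (-((amp φ r w y : ℂ) * (amp φ r w' y : ℂ))) * e1
  simp only [e]
  rw [integral_const_mul, norm_mul, ee_norm, one_mul]
  calc _ ≤ CD * (C * r⁻¹ ^ 7) * (1 + ‖a - a'‖) ^ (-(1 / 4 : ℝ)) := hdec _ _ (hamp r hr hrρ w w' hw) _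
    _ = _ := by ring

end Claimed.Agent.R254
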