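import Claimed.Agent.R254.Ker.Int
import Claimed.Agent.R254.Ker.Off
import Claimed.Agent.R254.Gen.Interp

/-!
THIS FILE = PACKAGE E254-H3 (row 254, END254-B; architect helper65).  Mathlib only.
# The `ℓ³L³` bound of the localised data over a sparse family of centres.

CLAIM.  `∑_{a ∈ W} ∫ |Hop φ r a g|³ dw ≤ C r⁻² (1 + #W r⁻⁶ (1+S)^{-1/4}) ∫ |g|³`   if the points of `W` are `S`-separated, `0 < r ≤ ρ/2`.

PLAN = `er_schur3` (Gen/Interp.lean) with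
`Z := ↥W × (E2 × ℝ)`, `ζ := Measure.count.prod (volume.restrict Ω₀)`, `Ω₀ := closedBall y₀ (ρ+r) ×ˢ Icc (-((1+G) r)) ((1+G) r)`, `Y := E2`, `ν := volume.restrict (closedBall y₀ (2ρ))`,
`k (a,w) y := kr φ r a w y` (measurable: `kr_continuous` composed with the measurable `Subtype.val`; bounded by `r⁻³`).
(`↥W` is a finite type with measurable singletons: `Measure.count` is finite; `lintegral_prod`, `lintegral_count`/`lintegral_fintype`, `Finset.sum_coe_sort`/`Finset.sum_attach` turn `∫⁻ dζ` into `∑_{a∈W} ∫⁻_{Ω₀}`.)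
* `Ai := erV2 r⁻¹`: `er_kr_int_y` and `lintegral_mono' Measure.restrict_le_self`.
* for `w ∈ Ω₀` (a.e. `z`; `ae_restrict_mem`, `Measure.ae_prod..` or prove the bound for all `z` with `w.1 ∈ closedBall ..` and use `Measure.prod` a.e. lemmas): `kr φ r a w y = 0` for
  `y ∉ closedBall y₀ (2ρ)` (`amp_supp`, `r ≤ ρ/2`), so `∫ .. ∂ν = ∫ ..` (`setIntegral_eq_integral_of_forall_compl_eq_zero`).  Then
  `∑_{a'} ∫⁻_{Ω₀} ‖L‖ₑ ≤ [a' = a] 2 erV2² r⁻¹ (er_gram_diag) + ∑_{a' ≠ a} vol(Ω₀) C_off r⁻⁷ (1+S)^{-1/4}` (`er_gram_off`, `‖a-a'‖ = dist a a' ≥ S`, `Real.rpow_le_rpow_of_nonpos`),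
  `vol Ω₀ = (ρ+r)² erV2 · 2(1+G) r ≤ 8 erV2 (1+G)`  (`ρ, r ≤ 1`; `Measure.prod_prod`, `er_vol_closedBall`, `Real.volume_Icc`).
  `A := 2 erV2² r⁻¹ + #W · 8 erV2 (1+G) C_off r⁻⁷ (1+S)^{-1/4}`.
* LHS: `∫ k z y g y ∂ν = Hop φ r a g w` (`g = 0` off `closedBall y₀ ρ`), and `Hop = 0` off `Ω₀` (`Hop_supp`), so `∫⁻_{Ω₀} = ∫⁻` (`setLIntegral_eq_of_..`/`lintegral_indicator`).   RHS: `∫⁻ ‖g‖³ ∂ν ≤ ∫⁻ ‖g‖³`.
* `24 Ai A ≤ C r⁻² (1 + #W r⁻⁶ (1+S)^{-1/4})` with `C := 48 erV2³ + 192 erV2² (1+G) C_off`.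
-/

set_option autoImplicit false

namespace Claimed.Agent.R254

open MeasureTheory Metric Set
open scoped ContDiff ENNReal ComplexConjugate RealInnerProductSpace

theorem er_lint_count_prod {X : Type*} [MeasurableSpace X] (W : Finset E3) (μ : Measure X)
    [SFinite μ] {F : ↥W × X → ℝ≥0∞} (hF : Measurable F) :
    ∫⁻ z, F z ∂((Measure.count : Measure ↥W).prod μ) = ∑ a : ↥W, ∫⁻ x, F (a, x) ∂μ := by
  rw [lintegral_prod _ hF.aemeasurable, lintegral_count, tsum_fintype]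

theorem er_H3_row {φ : E2 → ℝ} {y₀ : E2} {ρ c G : ℝ} (h : ErLoc φ y₀ ρ c G) {Coff : ℝ}
    (hCoff : 0 ≤ Coff)
    (hoff : ∀ r : ℝ, 0 < r → r ≤ ρ / 2 → ∀ (a a' : E3) (w w' : E2 × ℝ),
      w.1 ∈ closedBall y₀ (ρ + r) →
        ‖∫ y, kr φ r a w y * conj (kr φ r a' w' y)‖ ≤
          Coff * r⁻¹ ^ 7 * (1 + ‖a - a'‖) ^ (-(1 / 4 : ℝ)))
    {r : ℝ} (hr : 0 < r) (hrρ : r ≤ ρ / 2) (W : Finset E3) {S : ℝ} (hS : 0 ≤ S)
    (hsep : ∀ a ∈ W, ∀ a' ∈ W, a ≠ a' → S ≤ dist a a') {Ω₀ : Set (E2 × ℝ)} {v : ℝ} (hv : 0 ≤ v)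
    (hΩv : volume Ω₀ ≤ ENNReal.ofReal v) {a : E3} (ha : a ∈ W) {w : E2 × ℝ}
    (hw : w.1 ∈ closedBall y₀ (ρ + r)) :
    ∑ a' ∈ W, ∫⁻ w' in Ω₀, ‖∫ y, kr φ r a w y * conj (kr φ r a' w' y)‖ₑ ≤
      ENNReal.ofReal (2 * erV2 ^ 2 * r⁻¹ +
        W.card * (v * (Coff * r⁻¹ ^ 7 * (1 + S) ^ (-(1 / 4 : ℝ))))) := by
  have hV := erV2_pos
  have hσ : 0 ≤ (1 + S) ^ (-(1 / 4 : ℝ)) := Real.rpow_nonneg (by linarith) _
  have hoff0 : 0 ≤ Coff * r⁻¹ ^ 7 * (1 + S) ^ (-(1 / 4 : ℝ)) := by positivity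
  have hterm : ∀ a' ∈ W, ∫⁻ w' in Ω₀, ‖∫ y, kr φ r a w y * conj (kr φ r a' w' y)‖ₑ ≤
      (if a' = a then ENNReal.ofReal (2 * erV2 ^ 2 * r⁻¹) else 0) +
        ENNReal.ofReal (v * (Coff * r⁻¹ ^ 7 * (1 + S) ^ (-(1 / 4 : ℝ)))) := by
    intro a' ha'
    by_cases haa : a' = a
    · rw [if_pos haa]
      refine le_add_right ?_
      exact (setLIntegral_le_lintegral _ _).trans (er_gram_diag h.smooth.continuous hr a a' w)
    · rw [if_neg haa, zero_add]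
      have h1 : ∀ w' : E2 × ℝ, ‖∫ y, kr φ r a w y * conj (kr φ r a' w' y)‖ₑ ≤
          ENNReal.ofReal (Coff * r⁻¹ ^ 7 * (1 + S) ^ (-(1 / 4 : ℝ))) := by
        intro w'
        rw [← ofReal_norm]
        refine ENNReal.ofReal_le_ofReal ((hoff r hr hrρ a a' w w' hw).trans ?_)
        refine mul_le_mul_of_nonneg_left ?_ (by positivity)
        refine Real.rpow_le_rpow_of_nonpos (by linarith) ?_ (by norm_num)
        have := hsep a ha a' ha' (Ne.symm haa)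
        rw [dist_eq_norm] at this
        linarith
      refine (lintegral_mono fun w' => h1 w').trans ?_
      rw [setLIntegral_const, ENNReal.ofReal_mul hv, mul_comm]
      exact mul_le_mul_left hΩv _
  refine (Finset.sum_le_sum hterm).trans ?_
  rw [Finset.sum_add_distrib, Finset.sum_ite_eq' W a, if_pos ha, Finset.sum_const, nsmul_eq_mul,
    ENNReal.ofReal_add (by positivity) (by positivity),
    ENNReal.ofReal_mul (p := (W.card : ℝ)) (by positivity), ENNReal.ofReal_natCast]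

theorem er_kr_meas_W {φ : E2 → ℝ} (hφ : Continuous φ) (r : ℝ) (W : Finset E3) :
    Measurable (fun p : (↥W × (E2 × ℝ)) × E2 => kr φ r (p.1.1 : E3) p.1.2 p.2) := by
  have h0 : Continuous (fun p : (↥W × (E2 × ℝ)) × E2 =>
      (((p.1.1 : E3), p.1.2, p.2) : E3 × (E2 × ℝ) × E2)) := by fun_prop
  have h1 := (kr_continuous hφ r).comp h0
  exact h1.measurable

theorem er_kr_zero_off {φ : E2 → ℝ} {y₀ : E2} {ρ r : ℝ} (hr : 0 < r) (hrρ : r ≤ ρ / 2) (a : E3)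
    {w : E2 × ℝ} (hw : w.1 ∈ closedBall y₀ (ρ + r)) {y : E2} (hy : y ∉ closedBall y₀ (2 * ρ)) :
    kr φ r a w y = 0 := by
  by_contra hne
  have ha : amp φ r w y ≠ 0 := by
    intro h0
    apply hne
    unfold kr
    rw [h0]
    simp
  obtain ⟨h1, -⟩ := amp_supp φ hr ha
  apply hy
  rw [mem_closedBall] at hw ⊢
  calc dist y y₀ ≤ dist y w.1 + dist w.1 y₀ := dist_triangle _ _ _
    _ ≤ r + (ρ + r) := add_le_add (by rw [dist_comm, dist_eq_norm]; exact h1.le) hw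
    _ ≤ 2 * ρ := by linarith

theorem er_H3 {φ : E2 → ℝ} {y₀ : E2} {ρ c G : ℝ} (h : ErLoc φ y₀ ρ c G) :
    ∃ C : ℝ, 0 ≤ C ∧ ∀ r : ℝ, 0 < r → r ≤ ρ / 2 → ∀ (W : Finset E3) (S : ℝ), 0 ≤ S →
      (∀ a ∈ W, ∀ a' ∈ W, a ≠ a' → S ≤ dist a a') → ∀ g : E2 → ℂ, Dat y₀ ρ g →
        ∑ a ∈ W, ∫⁻ w : E2 × ℝ, ‖Hop φ r a g w‖ₑ ^ (3 : ℝ) ≤
          ENNReal.ofReal (C * r⁻¹ ^ 2 * (1 + W.card * r⁻¹ ^ 6 * (1 + S) ^ (-(1 / 4 : ℝ)))) *
            ∫⁻ y, ‖g y‖ₑ ^ (3 : ℝ) := by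
  obtain ⟨Coff, hCoff, hoff⟩ := er_gram_off h
  have hV := erV2_pos
  have hG1 := h.hG
  refine ⟨48 * erV2 ^ 3 + 192 * erV2 ^ 2 * (1 + G) * Coff, by positivity,
    fun r hr hrρ W S hS hsep g hg => ?_⟩
  have hφc := h.smooth.continuous
  have hρ := h.hρ
  have hρ1 := h.hρ1
  have hr1 : r ≤ 1 / 2 := by linarith
  obtain ⟨Ω₀, hΩ₀⟩ : ∃ Ω₀ : Set (E2 × ℝ),
    Ω₀ = closedBall y₀ (ρ + r) ×ˢ Icc (-((1 + G) * r)) ((1 + G) * r) := ⟨_, rfl⟩
  have hΩm : MeasurableSet Ω₀ := by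
    rw [hΩ₀]; exact measurableSet_closedBall.prod measurableSet_Icc
  have hΩv : volume Ω₀ ≤ ENNReal.ofReal (8 * erV2 * (1 + G)) := by
    rw [hΩ₀, Measure.volume_eq_prod, Measure.prod_prod, er_vol_closedBall y₀ (by linarith),
      Real.volume_Icc, ← ENNReal.ofReal_mul (by positivity)]
    refine ENNReal.ofReal_le_ofReal ?_
    have h1 : (ρ + r) ^ 2 ≤ 4 := by nlinarith
    have h2 : (1 + G) * r - -((1 + G) * r) ≤ 1 + G := by nlinarith
    have h3 : 0 ≤ (1 + G) * r - -((1 + G) * r) := by nlinarith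
    calc (ρ + r) ^ 2 * erV2 * ((1 + G) * r - -((1 + G) * r)) ≤ 4 * erV2 * (1 + G) := by gcongr
      _ ≤ 8 * erV2 * (1 + G) := by nlinarith [mul_pos hV (by linarith : 0 < 1 + G)]
  have : IsFiniteMeasure (volume.restrict Ω₀) :=
    ⟨by rw [Measure.restrict_apply_univ]; exact lt_of_le_of_lt hΩv ENNReal.ofReal_lt_top⟩
  have : IsFiniteMeasure (volume.restrict (closedBall y₀ (2 * ρ))) :=
    ⟨by rw [Measure.restrict_apply_univ]; exact measure_closedBall_lt_top⟩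
  have hσ : 0 ≤ (1 + S) ^ (-(1 / 4 : ℝ)) := Real.rpow_nonneg (by linarith) _
  obtain ⟨A, hA⟩ : ∃ A : ℝ, A = 2 * erV2 ^ 2 * r⁻¹ +
    W.card * (8 * erV2 * (1 + G) * (Coff * r⁻¹ ^ 7 * (1 + S) ^ (-(1 / 4 : ℝ)))) := ⟨_, rfl⟩
  have hA0 : 0 ≤ A := by rw [hA]; positivity
  -- the kernel
  have hkm' := er_kr_meas_W hφc r W
  have hkm : Measurable (Function.uncurry fun (z : ↥W × (E2 × ℝ)) (y : E2) =>
      kr φ r (z.1 : E3) z.2 y) := hkm'
  have hmemΩ : ∀ᵐ z ∂((Measure.count : Measure ↥W).prod (volume.restrict Ω₀)), z.2 ∈ Ω₀ :=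
    Measure.quasiMeasurePreserving_snd.ae (ae_restrict_mem hΩm)
  have key := er_schur3 ((Measure.count : Measure ↥W).prod (volume.restrict Ω₀))
    (volume.restrict (closedBall y₀ (2 * ρ)))
    (fun (z : ↥W × (E2 × ℝ)) (y : E2) => kr φ r (z.1 : E3) z.2 y) hkm (r⁻¹ ^ 3)
    (fun z y => by rw [kr_norm φ hr]; exact amp_le φ hr _ _) (erV2 * r⁻¹) A (by positivity) hA0
    (ae_of_all _ fun z => (lintegral_mono' Measure.restrict_le_self le_rfl).trans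
      (er_kr_int_y hφc hr _ _))
    (by
      filter_upwards [hmemΩ] with z hz
      have hz1 : z.2.1 ∈ closedBall y₀ (ρ + r) := by
        rw [hΩ₀] at hz
        exact hz.1
      have e1 : ∀ z' : ↥W × (E2 × ℝ),
          ∫ y in closedBall y₀ (2 * ρ), kr φ r (z.1 : E3) z.2 y * conj (kr φ r (z'.1 : E3) z'.2 y)
            = ∫ y, kr φ r (z.1 : E3) z.2 y * conj (kr φ r (z'.1 : E3) z'.2 y) := fun z' =>
        setIntegral_eq_integral_of_forall_compl_eq_zero fun y hy => by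
          rw [er_kr_zero_off hr hrρ _ hz1 hy, zero_mul]
      simp only [e1]
      have hFm : Measurable fun z' : ↥W × (E2 × ℝ) =>
          ‖∫ y, kr φ r (z.1 : E3) z.2 y * conj (kr φ r (z'.1 : E3) z'.2 y)‖ₑ := by
        have h1 : Measurable (Function.uncurry fun (z' : ↥W × (E2 × ℝ)) (y : E2) =>
            kr φ r (z.1 : E3) z.2 y * conj (kr φ r (z'.1 : E3) z'.2 y)) := by
          have h2 : Measurable fun p : (↥W × (E2 × ℝ)) × E2 => kr φ r (z.1 : E3) z.2 p.2 := by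
            have h0 : Continuous (fun p : (↥W × (E2 × ℝ)) × E2 =>
                (((z.1 : E3), z.2, p.2) : E3 × (E2 × ℝ) × E2)) := by fun_prop
            have h1 := (kr_continuous hφc r).comp h0
            exact h1.measurable
          exact h2.mul (Complex.continuous_conj.measurable.comp hkm)
        exact (h1.stronglyMeasurable.integral_prod_right).measurable.enorm
      rw [er_lint_count_prod W _ hFm,
        Finset.sum_coe_sort W (fun a' => ∫⁻ w' in Ω₀,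
          ‖∫ y, kr φ r (z.1 : E3) z.2 y * conj (kr φ r a' w' y)‖ₑ), hA]
      exact er_H3_row h hCoff hoff hr hrρ W hS hsep (by positivity) hΩv z.1.2 hz1)
    g hg.meas hg.bdd
  -- the left side
  have e2 : ∀ z : ↥W × (E2 × ℝ), ∫ y in closedBall y₀ (2 * ρ), kr φ r (z.1 : E3) z.2 y * g y
      = Hop φ r (z.1 : E3) g z.2 := fun z =>
    setIntegral_eq_integral_of_forall_compl_eq_zero fun y hy => by
      have : g y = 0 := by
        by_contra hne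
        exact hy (closedBall_subset_closedBall (by linarith) (hg.supp y hne))
      rw [this, mul_zero]
  simp only [e2] at key
  have hHm : Measurable fun z : ↥W × (E2 × ℝ) => ‖Hop φ r (z.1 : E3) g z.2‖ₑ ^ (3 : ℝ) := by
    have h1 : Measurable (Function.uncurry fun (z : ↥W × (E2 × ℝ)) (y : E2) =>
        kr φ r (z.1 : E3) z.2 y * g y) := hkm.mul (hg.meas.comp measurable_snd)
    exact ((h1.stronglyMeasurable.integral_prod_right).measurable.enorm).pow_const _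
  rw [er_lint_count_prod W _ hHm, Finset.sum_coe_sort W (fun a => ∫⁻ w in Ω₀,
    ‖Hop φ r a g w‖ₑ ^ (3 : ℝ))] at key
  have e3 : ∀ a : E3, ∫⁻ w in Ω₀, ‖Hop φ r a g w‖ₑ ^ (3 : ℝ)
      = ∫⁻ w, ‖Hop φ r a g w‖ₑ ^ (3 : ℝ) := by
    intro a
    rw [← lintegral_indicator hΩm]
    refine lintegral_congr fun w => ?_
    by_cases hw : w ∈ Ω₀
    · rw [indicator_of_mem hw]
    · rw [indicator_of_notMem hw]
      have : Hop φ r a g w = 0 := by
        by_contra hne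
        obtain ⟨h1, h2⟩ := Hop_supp h hr (by linarith) a hg hne
        apply hw
        rw [hΩ₀]
        exact ⟨h1, abs_le.1 h2⟩
      rw [this, enorm_zero, ENNReal.zero_rpow_of_pos (by norm_num)]
  simp only [e3] at key
  refine key.trans ?_
  refine mul_le_mul' (ENNReal.ofReal_le_ofReal ?_) (lintegral_mono' Measure.restrict_le_self le_rfl)
  rw [hA]
  obtain ⟨σ, hσd⟩ : ∃ σ : ℝ, σ = (1 + S) ^ (-(1 / 4 : ℝ)) := ⟨_, rfl⟩
  rw [← hσd] at hσ ⊢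
  obtain ⟨q, hq⟩ : ∃ q : ℝ, q = r⁻¹ := ⟨_, rfl⟩
  have hq0 : 0 < q := by rw [hq]; positivity
  rw [← hq]
  obtain ⟨n, hn⟩ : ∃ n : ℝ, n = (W.card : ℝ) := ⟨_, rfl⟩
  have hn0 : 0 ≤ n := by rw [hn]; positivity
  rw [← hn]
  have t1 : 0 ≤ 192 * erV2 ^ 2 * (1 + G) * Coff * q ^ 2 := by positivity
  have t2 : 0 ≤ 48 * erV2 ^ 3 * q ^ 2 * (n * q ^ 6 * σ) := by positivity
  nlinarith [t1, t2]

end Claimed.Agent.R254
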