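import Claimed.Agent.R254.Ker.Defs

/-!
THIS FILE = PACKAGE E254-IDENT (row 254, END254-B; architect helper65).  Mathlib only.
# The key identity  `ext φ g x * eta (r (x - a)) = ∫_t e(x₃ t) ext φ (Hop φ r a g (·,t)) x dt`.

`er_inner` (changes of variables).  Fix `y`, `b`.  For fixed `y₁` substitute `s = r⁻¹ (φ y₁ - φ y + t)` in the `t`-integral
(`integral_comp_mul_left`/`integral_comp_mul_add`-type lemmas on `ℝ`: `∫ F (r⁻¹ * (c + t)) dt = r ∫ F s ds`; `Measure.integral_comp_mul_left`, `integral_add_left_eq_self`), then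
`u = r⁻¹ • (y₁ - y)` in the `y₁`-integral (`Measure.integral_comp_inv_smul`/`integral_comp_smul`, `finrank ℝ E2 = 2`, `integral_sub_right_eq_self`).  Phase:
`ph φ b y₁ - ph φ b y + b₃ t = b₀ (y₁-y)₀ + b₁ (y₁-y)₁ + b₃ (φ y₁ - φ y + t) = (r b)₀ u₀ + (r b)₁ u₁ + (r b)₃ s`.   Jacobians `r² · r · r⁻³ = 1`.
`er_ident` (Fubini).  RHS `= ∫_t ∫_{y₁} ∫_y e(x₃ t) e(ph φ x y₁) kr φ r a (y₁,t) y g y`, and
`e(x₃ t) e(ph φ x y₁) kr φ r a (y₁,t) y = e(ph φ x y) * amp φ r (y₁,t) y * e(ph φ (x-a) y₁ - ph φ (x-a) y + (x-a)₃ t)` (`ee_add`, `ph_sub`).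
The integrand is measurable, bounded by `r⁻³ ‖g y‖` and vanishes unless `y ∈ closedBall y₀ ρ`, `y₁ ∈ closedBall y₀ (2ρ)`, `|t| ≤ (1+G) r` (`amp_supp`, `er_lip`): integrable on the product;
`integral_integral_swap` twice brings `∫_y` outside; then `er_inner` with `b = x - a`.
-/

set_option autoImplicit false

namespace Claimed.Agent.R254

open MeasureTheory Metric Set
open scoped ContDiff ENNReal ComplexConjugate RealInnerProductSpace

theorem er_inner_t (φ : E2 → ℝ) {r : ℝ} (hr : 0 < r) (b : E3) (y y₁ : E2) :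
    ∫ t : ℝ, (amp φ r (y₁, t) y : ℂ) * ee (ph φ b y₁ - ph φ b y + b 2 * t) =
      ((r⁻¹ ^ 2 : ℝ) : ℂ) * etaG (r • b) (r⁻¹ • (y₁ - y)) := by
  have h1 : ∀ t : ℝ, (amp φ r (y₁, t) y : ℂ) * ee (ph φ b y₁ - ph φ b y + b 2 * t) =
      (fun s => ((r⁻¹ ^ 3 : ℝ) : ℂ) * etaF (r • b, r⁻¹ • (y₁ - y)) s)
        (r⁻¹ * ((φ y₁ - φ y) + t)) := by
    intro t
    have e : ph φ b y₁ - ph φ b y + b 2 * t =
        (r • b) 0 * (r⁻¹ • (y₁ - y)) 0 + (r • b) 1 * (r⁻¹ • (y₁ - y)) 1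
          + (r • b) 2 * (r⁻¹ * ((φ y₁ - φ y) + t)) := by
      simp only [ph, PiLp.smul_apply, PiLp.sub_apply, smul_eq_mul]
      field_simp
      ring
    simp only [etaF, amp]
    rw [e]
    push_cast
    ring
  simp_rw [h1]
  rw [integral_add_left_eq_self
    (fun t => (fun s => ((r⁻¹ ^ 3 : ℝ) : ℂ) * etaF (r • b, r⁻¹ • (y₁ - y)) s) (r⁻¹ * t)) (φ y₁ - φ y),
    Measure.integral_comp_mul_left
      (fun s => ((r⁻¹ ^ 3 : ℝ) : ℂ) * etaF (r • b, r⁻¹ • (y₁ - y)) s) r⁻¹,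
    integral_const_mul, inv_inv, abs_of_pos hr]
  unfold etaG
  rw [Complex.real_smul, ← mul_assoc]
  congr 1
  push_cast
  field_simp

theorem er_inner {φ : E2 → ℝ} (hφ : Continuous φ) {r : ℝ} (hr : 0 < r) (b : E3) (y : E2) :
    ∫ y₁ : E2, ∫ t : ℝ, (amp φ r (y₁, t) y : ℂ) * ee (ph φ b y₁ - ph φ b y + b 2 * t) =
      eta (r • b) := by
  simp_rw [er_inner_t φ hr b y]
  rw [integral_const_mul, integral_sub_right_eq_self (fun z => etaG (r • b) (r⁻¹ • z)) y,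
    Measure.integral_comp_smul volume (etaG (r • b)) r⁻¹, finrank_euclideanSpace_fin, eta_eq,
    Complex.real_smul, ← mul_assoc]
  have h : ((r⁻¹ ^ 2 : ℝ) : ℂ) * ((|(r⁻¹ ^ 2)⁻¹| : ℝ) : ℂ) = 1 := by
    rw [abs_of_pos (by positivity), ← Complex.ofReal_mul]
    have : r⁻¹ ^ 2 * (r⁻¹ ^ 2)⁻¹ = 1 := mul_inv_cancel₀ (by positivity)
    rw [this, Complex.ofReal_one]
  rw [h, one_mul]

theorem kr_mul_supp {φ : E2 → ℝ} {y₀ : E2} {ρ c G : ℝ} (h : ErLoc φ y₀ ρ c G) {r : ℝ} (hr : 0 < r)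
    (hrρ : r ≤ ρ) (a : E3) {g : E2 → ℂ} (hg : Dat y₀ ρ g) {w : E2 × ℝ} {y : E2}
    (hy : kr φ r a w y * g y ≠ 0) :
    y ∈ closedBall y₀ ρ ∧ w.1 ∈ closedBall y₀ (2 * ρ) ∧ |w.2| ≤ (1 + G) * r := by
  have hgy : y ∈ closedBall y₀ ρ := hg.supp y (right_ne_zero_of_mul hy)
  have hk : kr φ r a w y ≠ 0 := left_ne_zero_of_mul hy
  have ha : amp φ r w y ≠ 0 := by
    intro h0
    apply hk
    unfold kr
    rw [h0]
    simp
  obtain ⟨h1, h2⟩ := amp_supp φ hr ha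
  have hw1 : w.1 ∈ closedBall y₀ (ρ + r) := by
    rw [mem_closedBall] at hgy ⊢
    calc dist w.1 y₀ ≤ dist w.1 y + dist y y₀ := dist_triangle _ _ _
      _ ≤ r + ρ := add_le_add (by rw [dist_eq_norm]; exact h1.le) hgy
      _ = ρ + r := add_comm _ _
  have hw2 : w.1 ∈ closedBall y₀ (2 * ρ) := closedBall_subset_closedBall (by linarith) hw1
  refine ⟨hgy, hw2, ?_⟩
  have hy2 : y ∈ closedBall y₀ (2 * ρ) := closedBall_subset_closedBall (by linarith [h.hρ]) hgy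
  have h3 := er_lip h hw2 hy2
  have h4 : G * ‖w.1 - y‖ ≤ G * r := mul_le_mul_of_nonneg_left h1.le (by linarith [h.hG])
  have h5 : |w.2| ≤ |φ w.1 - φ y + w.2| + |φ w.1 - φ y| := by
    have := abs_sub (φ w.1 - φ y + w.2) (φ w.1 - φ y)
    simpa using this
  nlinarith

/-- the triple integrand of the key identity -/
noncomputable def erTh (φ : E2 → ℝ) (r : ℝ) (a x : E3) (g : E2 → ℂ) (p : (E2 × ℝ) × E2) : ℂ :=
  ee (x 2 * p.1.2) * (ee (ph φ x p.1.1) * (kr φ r a p.1 p.2 * g p.2))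

theorem erTh_measurable {φ : E2 → ℝ} (hφ : Continuous φ) (r : ℝ) (a x : E3) {g : E2 → ℂ}
    (hg : Measurable g) : Measurable (erTh φ r a x g) := by
  unfold erTh
  have h0 : Continuous (fun p : (E2 × ℝ) × E2 => ((a, p) : E3 × (E2 × ℝ) × E2)) := by fun_prop
  have h1 := ((kr_continuous hφ r).comp h0).measurable
  have h2 : Continuous (fun p : (E2 × ℝ) × E2 => x 2 * p.1.2) := by fun_prop
  have h3 : Continuous (fun p : (E2 × ℝ) × E2 => ((x, p.1.1) : E3 × E2)) := by fun_prop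
  have h4 := (ee_continuous.comp ((ph_continuous hφ).comp h3)).measurable
  exact (ee_continuous.comp h2).measurable.mul (h4.mul (h1.mul (hg.comp measurable_snd)))

theorem erTh_integrable {φ : E2 → ℝ} {y₀ : E2} {ρ c G : ℝ} (h : ErLoc φ y₀ ρ c G) {r : ℝ}
    (hr : 0 < r) (hrρ : r ≤ ρ) (a x : E3) {g : E2 → ℂ} (hg : Dat y₀ ρ g) :
    Integrable (erTh φ r a x g) ((volume : Measure (E2 × ℝ)).prod (volume : Measure E2)) := by
  obtain ⟨B, hB⟩ := hg.bdd
  have hsupp : Function.support (erTh φ r a x g) ⊆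
      (closedBall y₀ (2 * ρ) ×ˢ Icc (-((1 + G) * r)) ((1 + G) * r)) ×ˢ closedBall y₀ ρ := by
    intro p hp
    have hp' : kr φ r a p.1 p.2 * g p.2 ≠ 0 :=
      right_ne_zero_of_mul (right_ne_zero_of_mul (Function.mem_support.1 hp))
    obtain ⟨h1, h2, h3⟩ := kr_mul_supp h hr hrρ a hg hp'
    exact ⟨⟨h2, abs_le.1 h3⟩, h1⟩
  rw [← integrableOn_iff_integrable_of_support_subset hsupp]
  refine Measure.integrableOn_of_bounded (M := r⁻¹ ^ 3 * B) ?_
    (erTh_measurable h.smooth.continuous r a x hg.meas).aestronglyMeasurable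
    (Filter.Eventually.of_forall fun p => ?_)
  · rw [Measure.prod_prod, Measure.volume_eq_prod, Measure.prod_prod]
    exact (ENNReal.mul_lt_top (ENNReal.mul_lt_top measure_closedBall_lt_top
      (by rw [Real.volume_Icc]; exact ENNReal.ofReal_lt_top)) measure_closedBall_lt_top).ne
  · unfold erTh
    rw [norm_mul, norm_mul, norm_mul, ee_norm, ee_norm, one_mul, one_mul, kr_norm φ hr]
    exact mul_le_mul (amp_le φ hr _ _) (hB _) (norm_nonneg _) (by positivity)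

theorem erTh_eq (φ : E2 → ℝ) (r : ℝ) (a x : E3) (g : E2 → ℂ) (y₁ : E2) (t : ℝ) (y : E2) :
    erTh φ r a x g ((y₁, t), y) = (ee (ph φ x y) * g y) *
      ((amp φ r (y₁, t) y : ℂ) * ee (ph φ (x - a) y₁ - ph φ (x - a) y + (x - a) 2 * t)) := by
  unfold erTh kr
  have e : ee (ph φ (x - a) y₁ - ph φ (x - a) y + (x - a) 2 * t) =
      ee (x 2 * t) * ee (ph φ x y₁) * ee (ph φ a y - ph φ a y₁ - a 2 * t) * conj (ee (ph φ x y)) := by
    rw [← ee_add, ← ee_add, ← ee_sub]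
    congr 1
    rw [ph_sub, ph_sub, PiLp.sub_apply]
    ring
  rw [e]
  have e2 := ee_mul_conj (ph φ x y)
  linear_combination (-(g y * (amp φ r (y₁, t) y : ℂ) * ee (x 2 * t) * ee (ph φ x y₁) *
    ee (ph φ a y - ph φ a y₁ - a 2 * t))) * e2

theorem er_ident {φ : E2 → ℝ} {y₀ : E2} {ρ c G : ℝ} (h : ErLoc φ y₀ ρ c G) {r : ℝ} (hr : 0 < r)
    (hrρ : r ≤ ρ) (a x : E3) {g : E2 → ℂ} (hg : Dat y₀ ρ g) :
    ext φ g x * eta (r • (x - a)) =
      ∫ t : ℝ, ee (x 2 * t) * ext φ (fun y₁ => Hop φ r a g (y₁, t)) x := by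
  have hΘ := erTh_integrable h hr hrρ a x hg
  have hP : Integrable (fun w : E2 × ℝ => ∫ y, erTh φ r a x g (w, y))
      ((volume : Measure E2).prod (volume : Measure ℝ)) := hΘ.integral_prod_left
  -- the right hand side as a triple integral
  have e1 : ∀ t : ℝ, ee (x 2 * t) * ext φ (fun y₁ => Hop φ r a g (y₁, t)) x =
      ∫ y₁ : E2, ∫ y, erTh φ r a x g ((y₁, t), y) := by
    intro t
    unfold ext Hop erTh
    rw [← integral_const_mul]
    refine integral_congr_ae (Filter.Eventually.of_forall fun y₁ => ?_)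
    show ee (x 2 * t) * (ee (ph φ x y₁) * ∫ y, kr φ r a (y₁, t) y * g y) = _
    rw [← integral_const_mul, ← integral_const_mul]
  simp_rw [e1]
  rw [← integral_integral_swap (f := fun (y₁ : E2) (t : ℝ) => ∫ y, erTh φ r a x g ((y₁, t), y)) hP,
    ← integral_prod (fun w : E2 × ℝ => ∫ y, erTh φ r a x g (w, y)) hP,
    ← Measure.volume_eq_prod,
    integral_integral_swap (f := fun (w : E2 × ℝ) (y : E2) => erTh φ r a x g (w, y)) hΘ]
  unfold ext
  rw [← integral_mul_const]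
  refine integral_congr_ae ?_
  filter_upwards [hΘ.prod_left_ae] with y hy
  rw [Measure.volume_eq_prod, integral_prod _ hy]
  simp_rw [erTh_eq, integral_const_mul]
  rw [er_inner h.smooth.continuous hr (x - a) y]

/-- generates the equation lemmas of the definitions above in this file (rule 6: unique names) -/
theorem er_ident_eqns_cite : True := by
  have := @erTh.eq_1
  trivial

end Claimed.Agent.R254
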