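import Claimed.Agent.R254.Ker.Defs

/-!
THIS FILE = PACKAGE E254-KRINT (row 254, END254-B; architect helper65).  Mathlib only.
# Schur-type bounds of the kernel `kr` (no oscillation used).   `erV2 = vol(ball (0:E2) 1)`.

`er_kr_int_y`: `‖kr‖ = amp ≤ r⁻³ 1_{ball w.1 r}(y)` (`kr_norm`, `amp_le`, `amp_supp`), `vol(ball w.1 r) = r² erV2` (`Measure.addHaar_ball`, `finrank = 2`).
`er_kr_int_w`: `lintegral_prod` on `E2 × ℝ` (measurability from `amp_continuous`); for fixed `y₁`: `∫_t amp ≤ r⁻³ 1_{ball y r}(y₁) vol{t : |φ y₁ - φ y + t| < r} = r⁻³ 1_{..} 2r`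
(`Real.volume_Ioo`/`Real.volume_ball`), then `∫_{y₁} ≤ 2 r⁻² r² erV2`.
`er_gram_diag`: `‖∫_y kr a w y conj(kr a' w' y)‖ₑ ≤ ∫⁻_y ‖kr a w y‖ₑ ‖kr a' w' y‖ₑ` (`enorm_integral_le_lintegral_enorm`), Tonelli (`lintegral_lintegral_swap`),
`∫⁻_{w'} ‖kr a' w' y‖ₑ ≤ 2 erV2`, `∫⁻_y ‖kr a w y‖ₑ ≤ erV2 r⁻¹`.
-/

set_option autoImplicit false

namespace Claimed.Agent.R254

open MeasureTheory Metric Set
open scoped ContDiff ENNReal ComplexConjugate RealInnerProductSpace

/-- area of the unit disc -/
noncomputable def erV2 : ℝ := (volume (ball (0 : E2) 1)).toReal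

theorem erV2_pos : 0 < erV2 := by
  unfold erV2
  exact ENNReal.toReal_pos (measure_ball_pos volume _ one_pos).ne' measure_ball_lt_top.ne

theorem er_vol_ball (y : E2) {s : ℝ} (hs : 0 ≤ s) : volume (ball y s) = ENNReal.ofReal (s ^ 2 * erV2) := by
  rw [Measure.addHaar_ball volume y hs, ENNReal.ofReal_mul (by positivity)]
  unfold erV2
  rw [ENNReal.ofReal_toReal measure_ball_lt_top.ne]
  simp

theorem er_vol_closedBall (y : E2) {s : ℝ} (hs : 0 ≤ s) :
    volume (closedBall y s) = ENNReal.ofReal (s ^ 2 * erV2) := by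
  rw [Measure.addHaar_closedBall volume y hs, ENNReal.ofReal_mul (by positivity)]
  unfold erV2
  rw [ENNReal.ofReal_toReal measure_ball_lt_top.ne]
  simp

theorem er_kr_enorm (φ : E2 → ℝ) {r : ℝ} (hr : 0 < r) (a : E3) (w : E2 × ℝ) (y : E2) :
    ‖kr φ r a w y‖ₑ = ENNReal.ofReal (amp φ r w y) := by
  rw [← ofReal_norm, kr_norm φ hr]

theorem er_kr_int_y {φ : E2 → ℝ} (hφ : Continuous φ) {r : ℝ} (hr : 0 < r) (a : E3) (w : E2 × ℝ) :
    ∫⁻ y, ‖kr φ r a w y‖ₑ ≤ ENNReal.ofReal (erV2 * r⁻¹) := by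
  calc ∫⁻ y, ‖kr φ r a w y‖ₑ
      ≤ ∫⁻ y, (ball w.1 r).indicator (fun _ => ENNReal.ofReal (r⁻¹ ^ 3)) y := by
        refine lintegral_mono fun y => ?_
        rw [er_kr_enorm φ hr]
        by_cases h : amp φ r w y = 0
        · rw [h]; simp
        · have h1 := (amp_supp φ hr h).1
          have : y ∈ ball w.1 r := by
            rw [mem_ball, dist_comm, dist_eq_norm]; exact h1
          rw [Set.indicator_of_mem this]
          exact ENNReal.ofReal_le_ofReal (amp_le φ hr w y)
    _ = ENNReal.ofReal (r⁻¹ ^ 3) * volume (ball w.1 r) := by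
        rw [lintegral_indicator measurableSet_ball, setLIntegral_const]
    _ = ENNReal.ofReal (erV2 * r⁻¹) := by
        rw [er_vol_ball _ hr.le, ← ENNReal.ofReal_mul (by positivity)]
        congr 1
        field_simp

theorem er_kr_int_w {φ : E2 → ℝ} (hφ : Continuous φ) {r : ℝ} (hr : 0 < r) (a : E3) (y : E2) :
    ∫⁻ w : E2 × ℝ, ‖kr φ r a w y‖ₑ ≤ ENNReal.ofReal (2 * erV2) := by
  have hc : Continuous (fun w : E2 × ℝ => kr φ r a w y) := by
    have h0 : Continuous (fun w : E2 × ℝ => ((a, w, y) : E3 × (E2 × ℝ) × E2)) := by fun_prop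
    have h1 := (kr_continuous hφ r).comp h0
    simp only [Function.comp_def] at h1
    exact h1
  rw [Measure.volume_eq_prod, lintegral_prod _ hc.measurable.enorm.aemeasurable]
  calc ∫⁻ y₁ : E2, ∫⁻ t : ℝ, ‖kr φ r a (y₁, t) y‖ₑ
      ≤ ∫⁻ y₁ : E2, (ball y r).indicator (fun _ => ENNReal.ofReal (r⁻¹ ^ 3 * (2 * r))) y₁ := by
        refine lintegral_mono fun y₁ => ?_
        calc ∫⁻ t : ℝ, ‖kr φ r a (y₁, t) y‖ₑ
            ≤ ∫⁻ t : ℝ, (ball (-(φ y₁ - φ y)) r).indicator
                (fun _ => (ball y r).indicator (fun _ => ENNReal.ofReal (r⁻¹ ^ 3)) y₁) t := by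
              refine lintegral_mono fun t => ?_
              rw [er_kr_enorm φ hr]
              by_cases h : amp φ r (y₁, t) y = 0
              · rw [h]; simp
              · obtain ⟨h1, h2⟩ := amp_supp φ hr h
                have m1 : y₁ ∈ ball y r := by
                  rw [mem_ball, dist_eq_norm]; exact h1
                have m2 : t ∈ ball (-(φ y₁ - φ y)) r := by
                  rw [mem_ball, Real.dist_eq]
                  have : t - -(φ y₁ - φ y) = φ y₁ - φ y + t := by ring
                  rw [this]; exact h2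
                rw [Set.indicator_of_mem m2, Set.indicator_of_mem m1]
                exact ENNReal.ofReal_le_ofReal (amp_le φ hr _ y)
          _ = (ball y r).indicator (fun _ => ENNReal.ofReal (r⁻¹ ^ 3)) y₁ *
                volume (ball (-(φ y₁ - φ y)) r) := by
              rw [lintegral_indicator measurableSet_ball, setLIntegral_const]
          _ = (ball y r).indicator (fun _ => ENNReal.ofReal (r⁻¹ ^ 3 * (2 * r))) y₁ := by
              rw [Real.volume_ball]
              by_cases m1 : y₁ ∈ ball y r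
              · rw [Set.indicator_of_mem m1, Set.indicator_of_mem m1,
                  ENNReal.ofReal_mul (p := r⁻¹ ^ 3) (by positivity)]
              · rw [Set.indicator_of_notMem m1, Set.indicator_of_notMem m1, zero_mul]
    _ = ENNReal.ofReal (r⁻¹ ^ 3 * (2 * r)) * volume (ball y r) := by
        rw [lintegral_indicator measurableSet_ball, setLIntegral_const]
    _ = ENNReal.ofReal (2 * erV2) := by
        rw [er_vol_ball _ hr.le, ← ENNReal.ofReal_mul (by positivity)]
        congr 1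
        field_simp

theorem er_gram_diag {φ : E2 → ℝ} (hφ : Continuous φ) {r : ℝ} (hr : 0 < r) (a a' : E3)
    (w : E2 × ℝ) :
    ∫⁻ w' : E2 × ℝ, ‖∫ y, kr φ r a w y * conj (kr φ r a' w' y)‖ₑ ≤
      ENNReal.ofReal (2 * erV2 ^ 2 * r⁻¹) := by
  have hc1 : Continuous (fun p : (E2 × ℝ) × E2 => kr φ r a w p.2) := by
    have h0 : Continuous (fun p : (E2 × ℝ) × E2 => ((a, w, p.2) : E3 × (E2 × ℝ) × E2)) := by fun_prop
    have h1 := (kr_continuous hφ r).comp h0
    simp only [Function.comp_def] at h1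
    exact h1
  have hc2 : Continuous (fun p : (E2 × ℝ) × E2 => kr φ r a' p.1 p.2) := by
    have h0 : Continuous (fun p : (E2 × ℝ) × E2 => ((a', p.1, p.2) : E3 × (E2 × ℝ) × E2)) := by fun_prop
    have h1 := (kr_continuous hφ r).comp h0
    simp only [Function.comp_def] at h1
    exact h1
  calc ∫⁻ w' : E2 × ℝ, ‖∫ y, kr φ r a w y * conj (kr φ r a' w' y)‖ₑ
      ≤ ∫⁻ w' : E2 × ℝ, ∫⁻ y, ‖kr φ r a w y‖ₑ * ‖kr φ r a' w' y‖ₑ := by
        refine lintegral_mono fun w' => ?_
        refine (enorm_integral_le_lintegral_enorm _).trans (le_of_eq ?_)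
        refine lintegral_congr fun y => ?_
        rw [enorm_mul, RCLike.enorm_conj]
    _ = ∫⁻ y, ∫⁻ w' : E2 × ℝ, ‖kr φ r a w y‖ₑ * ‖kr φ r a' w' y‖ₑ := by
        refine lintegral_lintegral_swap ?_
        exact (hc1.measurable.enorm.mul hc2.measurable.enorm).aemeasurable
    _ ≤ ∫⁻ y, ‖kr φ r a w y‖ₑ * ENNReal.ofReal (2 * erV2) := by
        refine lintegral_mono fun y => ?_
        have hm : Measurable (fun w' : E2 × ℝ => ‖kr φ r a' w' y‖ₑ) := by
          have h0 : Continuous (fun w' : E2 × ℝ => ((w', y) : (E2 × ℝ) × E2)) := by fun_prop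
          exact (hc2.comp h0).measurable.enorm
        rw [lintegral_const_mul _ hm]
        gcongr
        exact er_kr_int_w hφ hr a' y
    _ = (∫⁻ y, ‖kr φ r a w y‖ₑ) * ENNReal.ofReal (2 * erV2) := by
        have hm : Measurable (fun y : E2 => ‖kr φ r a w y‖ₑ) := by
          have h0 : Continuous (fun y : E2 => ((w, y) : (E2 × ℝ) × E2)) := by fun_prop
          exact (hc1.comp h0).measurable.enorm
        rw [lintegral_mul_const _ hm]
    _ ≤ ENNReal.ofReal (erV2 * r⁻¹) * ENNReal.ofReal (2 * erV2) := by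
        gcongr
        exact er_kr_int_y hφ hr a w
    _ = ENNReal.ofReal (2 * erV2 ^ 2 * r⁻¹) := by
        have := erV2_pos
        rw [← ENNReal.ofReal_mul (by positivity)]
        congr 1
        ring

/-- generates the equation lemmas of the definitions above in this file (rule 6: unique names) -/
theorem er_krint_eqns_cite : True := by
  have := @erV2.eq_1
  trivial

end Claimed.Agent.R254
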